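import Vale.Agent.Lib.P047.Cube

namespace Vale.Agent.P047

open Finset

/-- the biased mean of `sgn ∘ f`, written through the Fourier coefficients -/
noncomputable def PhiFn {n : ℕ} (f : (Fin n → Bool) → Bool) (r : ℝ) : ℝ :=
  ∑ S : Finset (Fin n), fhat f S * r ^ S.card

/-- its derivative in `r` -/
noncomputable def dPhiFn {n : ℕ} (f : (Fin n → Bool) → Bool) (r : ℝ) : ℝ :=
  ∑ S : Finset (Fin n), fhat f S * (S.card * r ^ (S.card - 1))

namespace Biased

/-- one-coordinate weight of the product measure with mean `r` -/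
noncomputable def wt (r : ℝ) (b : Bool) : ℝ := (1 + r * sgn b) / 2

/-- centred coordinate -/
noncomputable def psi (r : ℝ) (b : Bool) : ℝ := sgn b - r

/-- biased (unnormalised) Fourier coefficient -/
noncomputable def cc {n : ℕ} (r : ℝ) (g : (Fin n → Bool) → ℝ) (S : Finset (Fin n)) : ℝ :=
  ∑ x : Fin n → Bool, (∏ j, wt r (x j)) * g x * ∏ j ∈ S, psi r (x j)

lemma kernel_id {n : ℕ} (r s : ℝ) (g : (Fin n → Bool) → ℝ) (α β : Fin n → ℝ) :
    ∑ S : Finset (Fin n), (∏ j ∈ S, β j) * (∏ j ∈ Sᶜ, α j) * (cc r g S ^ 2 / s ^ S.card)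
      = ∑ x : Fin n → Bool, ∑ y : Fin n → Bool, g x * g y *
          ∏ j, (wt r (x j) * wt r (y j) * (β j * (psi r (x j) * psi r (y j) / s) + α j)) := by
  have h1 : ∀ S : Finset (Fin n),
      (∏ j ∈ S, β j) * (∏ j ∈ Sᶜ, α j) * (cc r g S ^ 2 / s ^ S.card)
        = ∑ x : Fin n → Bool, ∑ y : Fin n → Bool,
            (∏ j ∈ S, β j) * (∏ j ∈ Sᶜ, α j) *
            ((((∏ j, wt r (x j)) * g x * ∏ j ∈ S, psi r (x j)) *
              ((∏ j, wt r (y j)) * g y * ∏ j ∈ S, psi r (y j))) / s ^ S.card) := by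
    intro S
    unfold cc
    rw [sq, Finset.sum_mul_sum, Finset.sum_div, Finset.mul_sum]
    apply Finset.sum_congr rfl
    intro x _
    rw [Finset.sum_div, Finset.mul_sum]
  rw [Finset.sum_congr rfl (fun S _ => h1 S), Finset.sum_comm]
  apply Finset.sum_congr rfl
  intro x _
  rw [Finset.sum_comm]
  apply Finset.sum_congr rfl
  intro y _
  rw [Finset.prod_mul_distrib, Finset.prod_mul_distrib, Finset.prod_add, Finset.powerset_univ,
    Finset.mul_sum, Finset.mul_sum]
  apply Finset.sum_congr rfl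
  intro S _
  rw [Finset.prod_mul_distrib, Finset.prod_div_distrib, Finset.prod_mul_distrib, Finset.prod_const,
    ← Finset.compl_eq_univ_sdiff]
  ring

lemma wt_mul_psi (r : ℝ) (b : Bool) : wt r b * psi r b = (1 - r ^ 2) * sgn b / 2 := by
  cases b <;> simp [wt, psi, sgn] <;> ring

lemma weight_expand {n : ℕ} (r : ℝ) (S : Finset (Fin n)) (x : Fin n → Bool) :
    (∏ j, wt r (x j)) * ∏ j ∈ S, psi r (x j)
      = (1 / 2 ^ n) * ∑ V : Finset (Fin n),
          (if S ⊆ V then (1 - r ^ 2) ^ S.card * r ^ (V \ S).card * ∏ j ∈ V, sgn (x j) else 0) := by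
  have e1 : ∏ j ∈ S, psi r (x j) = ∏ j, (if j ∈ S then psi r (x j) else 1) := by
    rw [Finset.prod_ite_mem, Finset.univ_inter]
  rw [e1, ← Finset.prod_mul_distrib]
  have e2 : ∀ j, wt r (x j) * (if j ∈ S then psi r (x j) else 1)
      = (1 / 2) * (sgn (x j) * (if j ∈ S then (1 - r ^ 2) else r) + (if j ∈ S then 0 else 1)) := by
    intro j
    by_cases hj : j ∈ S
    · simp only [hj, if_true]; rw [wt_mul_psi]; ring
    · simp only [hj, if_false]; unfold wt; ring
  rw [Finset.prod_congr rfl (fun j _ => e2 j), Finset.prod_mul_distrib, Finset.prod_const,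
    Finset.prod_add, Finset.powerset_univ, Finset.card_univ, Fintype.card_fin, one_div_pow]
  congr 1
  apply Finset.sum_congr rfl
  intro V _
  by_cases hSV : S ⊆ V
  · rw [if_pos hSV]
    have h2 : ∏ j ∈ univ \ V, (if j ∈ S then (0:ℝ) else 1) = 1 := by
      apply Finset.prod_eq_one
      intro j hj
      have : j ∉ S := fun h => (Finset.mem_sdiff.mp hj).2 (hSV h)
      simp [this]
    rw [h2, mul_one, Finset.prod_mul_distrib, Finset.prod_ite, Finset.prod_const, Finset.prod_const,
      Finset.filter_mem_eq_inter, Finset.filter_notMem_eq_sdiff, Finset.inter_eq_right.mpr hSV]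
    ring
  · rw [if_neg hSV]
    obtain ⟨j, hjS, hjV⟩ := Finset.not_subset.mp hSV
    have h2 : ∏ j ∈ univ \ V, (if j ∈ S then (0:ℝ) else 1) = 0 := by
      apply Finset.prod_eq_zero (i := j)
      · simp [hjV]
      · simp [hjS]
    rw [h2, mul_zero]

lemma cc_eq {n : ℕ} (r : ℝ) (f : (Fin n → Bool) → Bool) (S : Finset (Fin n)) :
    cc r (fun x => sgn (f x)) S
      = (1 - r ^ 2) ^ S.card *
        ∑ V : Finset (Fin n), (if S ⊆ V then r ^ (V \ S).card * fhat f V else 0) := by
  unfold cc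
  have h1 : ∀ x : Fin n → Bool, (∏ j, wt r (x j)) * sgn (f x) * ∏ j ∈ S, psi r (x j)
      = ∑ V : Finset (Fin n), (if S ⊆ V then
          (1 - r ^ 2) ^ S.card * r ^ (V \ S).card * ((sgn (f x) * ∏ j ∈ V, sgn (x j)) / 2 ^ n) else 0) := by
    intro x
    have : (∏ j, wt r (x j)) * sgn (f x) * ∏ j ∈ S, psi r (x j)
        = sgn (f x) * ((∏ j, wt r (x j)) * ∏ j ∈ S, psi r (x j)) := by ring
    rw [this, weight_expand, Finset.mul_sum, Finset.mul_sum]
    apply Finset.sum_congr rfl
    intro V _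
    by_cases hSV : S ⊆ V
    · simp only [hSV, if_true]; ring
    · simp only [hSV, if_false]; ring
  rw [Finset.sum_congr rfl (fun x _ => h1 x), Finset.sum_comm, Finset.mul_sum]
  apply Finset.sum_congr rfl
  intro V _
  by_cases hSV : S ⊆ V
  · simp only [hSV, if_true]
    rw [← Finset.mul_sum, ← Finset.sum_div]
    unfold fhat
    ring
  · simp only [hSV, if_false]; simp

lemma cc_empty {n : ℕ} (r : ℝ) (f : (Fin n → Bool) → Bool) :
    cc r (fun x => sgn (f x)) ∅ = PhiFn f r := by
  rw [cc_eq]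
  unfold PhiFn
  simp only [Finset.card_empty, pow_zero, one_mul, Finset.empty_subset, if_true, Finset.sdiff_empty]
  apply Finset.sum_congr rfl
  intro V _
  ring

lemma cc_zero_of_deg {n d : ℕ} (r : ℝ) (f : (Fin n → Bool) → Bool) (hd : DegLE f d)
    (S : Finset (Fin n)) (hS : d < S.card) : cc r (fun x => sgn (f x)) S = 0 := by
  rw [cc_eq]
  have : ∑ V : Finset (Fin n), (if S ⊆ V then r ^ (V \ S).card * fhat f V else 0) = 0 := by
    apply Finset.sum_eq_zero
    intro V _
    by_cases hSV : S ⊆ V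
    · rw [if_pos hSV, hd V (lt_of_lt_of_le hS (Finset.card_le_card hSV)), mul_zero]
    · rw [if_neg hSV]
  rw [this, mul_zero]

lemma sum_cc_singleton {n : ℕ} (r : ℝ) (f : (Fin n → Bool) → Bool) :
    ∑ i : Fin n, cc r (fun x => sgn (f x)) {i} = (1 - r ^ 2) * dPhiFn f r := by
  have h1 : ∀ i : Fin n, cc r (fun x => sgn (f x)) {i}
      = ∑ V : Finset (Fin n), (if i ∈ V then (1 - r ^ 2) * (fhat f V * r ^ (V.card - 1)) else 0) := by
    intro i
    rw [cc_eq, Finset.card_singleton, pow_one, Finset.mul_sum]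
    apply Finset.sum_congr rfl
    intro V _
    by_cases hi : i ∈ V
    · rw [if_pos (Finset.singleton_subset_iff.mpr hi), if_pos hi, Finset.sdiff_singleton_eq_erase,
        Finset.card_erase_of_mem hi]
      ring
    · rw [if_neg (fun h => hi (Finset.singleton_subset_iff.mp h)), if_neg hi, mul_zero]
  rw [Finset.sum_congr rfl (fun i _ => h1 i), Finset.sum_comm]
  unfold dPhiFn
  rw [Finset.mul_sum]
  apply Finset.sum_congr rfl
  intro V _
  rw [Finset.sum_ite_mem, Finset.univ_inter, Finset.sum_const, nsmul_eq_mul]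
  ring

lemma ker_eq (r : ℝ) (hs : 1 - r ^ 2 ≠ 0) (a b : Bool) :
    wt r a * wt r b * (1 * (psi r a * psi r b / (1 - r ^ 2)) + 1)
      = if a = b then wt r a else 0 := by
  cases a <;> cases b <;> simp only [wt, psi, sgn, if_true, if_false, Bool.false_eq_true,
    reduceCtorEq] <;> field_simp <;> ring

lemma ker_inf (r : ℝ) (hs : 1 - r ^ 2 ≠ 0) (a b : Bool) :
    wt r a * wt r b * (1 * (psi r a * psi r b / (1 - r ^ 2)) + 0)
      = (1 - r ^ 2) / 4 * (sgn a * sgn b) := by
  have h : wt r a * wt r b * (1 * (psi r a * psi r b / (1 - r ^ 2)) + 0)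
      = (wt r a * psi r a) * (wt r b * psi r b) / (1 - r ^ 2) := by ring
  rw [h, wt_mul_psi, wt_mul_psi]
  field_simp
  ring

lemma sum_weights {n : ℕ} (r : ℝ) : ∑ x : Fin n → Bool, ∏ j, wt r (x j) = 1 := by
  rw [sum_prod_cube (fun _ b => wt r b)]
  apply Finset.prod_eq_one
  intro j _
  simp [wt, sgn]
  ring

lemma wt_nonneg {r : ℝ} (h : |r| ≤ 1) (b : Bool) : 0 ≤ wt r b := by
  have := abs_le.mp h
  cases b <;> simp [wt, sgn] <;> linarith

lemma parseval {n : ℕ} (r : ℝ) (hs : 1 - r ^ 2 ≠ 0) (g : (Fin n → Bool) → ℝ) :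
    ∑ S : Finset (Fin n), cc r g S ^ 2 / (1 - r ^ 2) ^ S.card
      = ∑ x : Fin n → Bool, (∏ j, wt r (x j)) * g x ^ 2 := by
  have h := kernel_id r (1 - r ^ 2) g (fun _ => 1) (fun _ => 1)
  simp only [Finset.prod_const_one, one_mul] at h
  rw [h]
  apply Finset.sum_congr rfl
  intro x _
  have h2 : ∀ y : Fin n → Bool, g x * g y *
      ∏ j, (wt r (x j) * wt r (y j) * (psi r (x j) * psi r (y j) / (1 - r ^ 2) + 1))
      = if x = y then (∏ j, wt r (x j)) * g x ^ 2 else 0 := by
    intro y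
    have h3 : ∀ j, wt r (x j) * wt r (y j) * (psi r (x j) * psi r (y j) / (1 - r ^ 2) + 1)
        = if x j = y j then wt r (x j) else 0 := by
      intro j
      rw [← ker_eq r hs, one_mul]
    rw [Finset.prod_congr rfl (fun j _ => h3 j), Finset.prod_ite_zero]
    by_cases hxy : x = y
    · subst hxy
      simp
      ring
    · have : ¬ ∀ j ∈ (univ : Finset (Fin n)), x j = y j := by
        intro hh
        exact hxy (funext fun j => hh j (Finset.mem_univ j))
      rw [if_neg this, if_neg hxy, mul_zero]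
  rw [Finset.sum_congr rfl (fun y _ => h2 y), Finset.sum_ite_eq]
  simp

lemma prod_special {n : ℕ} (i : Fin n) (u v : Fin n → ℝ) :
    ∏ j, (if j = i then u j else v j) = u i * ∏ j ∈ univ.erase i, v j := by
  rw [← Finset.mul_prod_erase univ _ (Finset.mem_univ i), if_pos rfl]
  congr 1
  apply Finset.prod_congr rfl
  intro j hj
  rw [if_neg (Finset.ne_of_mem_erase hj)]

/-- off-diagonal kernel: `x` and `y` differ exactly in coordinate `i` -/
noncomputable def Mk {n : ℕ} (r : ℝ) (i : Fin n) (x y : Fin n → Bool) : ℝ :=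
  ∏ j, (if j = i then (if x j = y j then 0 else 1) else (if x j = y j then wt r (x j) else 0))

/-- weight of the coordinates other than `i` -/
noncomputable def wp {n : ℕ} (r : ℝ) (i : Fin n) (x : Fin n → Bool) : ℝ :=
  ∏ j, (if j = i then 1 else wt r (x j))

lemma Mk_nonneg {n : ℕ} {r : ℝ} (h : |r| ≤ 1) (i : Fin n) (x y : Fin n → Bool) : 0 ≤ Mk r i x y := by
  unfold Mk
  apply Finset.prod_nonneg
  intro j _
  split_ifs <;> first | exact le_refl _ | exact zero_le_one | exact wt_nonneg h _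

lemma sum_Mk_right {n : ℕ} (r : ℝ) (i : Fin n) (x : Fin n → Bool) :
    ∑ y : Fin n → Bool, Mk r i x y = wp r i x := by
  unfold Mk wp
  rw [sum_prod_cube (fun j b => (if j = i then (if x j = b then (0:ℝ) else 1)
    else (if x j = b then wt r (x j) else 0)))]
  apply Finset.prod_congr rfl
  intro j _
  by_cases hj : j = i <;> cases hx : x j <;> simp [hj]

lemma sum_Mk_left {n : ℕ} (r : ℝ) (i : Fin n) (y : Fin n → Bool) :
    ∑ x : Fin n → Bool, Mk r i x y = wp r i y := by
  unfold Mk wp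
  rw [sum_prod_cube (fun j b => (if j = i then (if b = y j then (0:ℝ) else 1)
    else (if b = y j then wt r b else 0)))]
  apply Finset.prod_congr rfl
  intro j _
  by_cases hj : j = i <;> cases hx : y j <;> simp [hj]

lemma Mk_sgn {n : ℕ} (r : ℝ) (i : Fin n) (x y : Fin n → Bool) :
    Mk r i x y * sgn (x i) = - (Mk r i x y * sgn (y i)) := by
  unfold Mk
  rw [prod_special]
  cases hx : x i <;> cases hy : y i <;> simp [sgn]

lemma diag_kernel {n : ℕ} (r : ℝ) (i : Fin n) (x y : Fin n → Bool) :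
    (if x = y then wp r i x else 0)
      = (if x i = y i then 1 else 0) * ∏ j ∈ univ.erase i, (if x j = y j then wt r (x j) else 0) := by
  rw [← prod_special i (fun j => if x j = y j then (1:ℝ) else 0)
    (fun j => if x j = y j then wt r (x j) else 0)]
  have h1 : ∀ j, (if j = i then (if x j = y j then (1:ℝ) else 0)
      else (if x j = y j then wt r (x j) else 0))
      = if x j = y j then (if j = i then 1 else wt r (x j)) else 0 := by
    intro j; split_ifs <;> rfl
  rw [Finset.prod_congr rfl (fun j _ => h1 j), Finset.prod_ite_zero]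
  unfold wp
  by_cases hxy : x = y
  · subst hxy; simp
  · have : ¬ ∀ j ∈ (univ : Finset (Fin n)), x j = y j := by
      intro hh
      exact hxy (funext fun j => hh j (Finset.mem_univ j))
    rw [if_neg this, if_neg hxy]

lemma inf_formula {n : ℕ} (r : ℝ) (hs : 1 - r ^ 2 ≠ 0) (g : (Fin n → Bool) → ℝ) (i : Fin n) :
    ∑ S : Finset (Fin n), (if i ∈ S then cc r g S ^ 2 / (1 - r ^ 2) ^ S.card else 0)
      = (1 - r ^ 2) / 4 * (∑ x : Fin n → Bool, wp r i x * g x ^ 2
          - ∑ x : Fin n → Bool, ∑ y : Fin n → Bool, Mk r i x y * (g x * g y)) := by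
  have h := kernel_id r (1 - r ^ 2) g (fun j => if j = i then 0 else 1) (fun _ => 1)
  have hL : ∀ S : Finset (Fin n), (∏ j ∈ S, (1:ℝ)) * (∏ j ∈ Sᶜ, (if j = i then (0:ℝ) else 1)) *
      (cc r g S ^ 2 / (1 - r ^ 2) ^ S.card)
      = (if i ∈ S then cc r g S ^ 2 / (1 - r ^ 2) ^ S.card else 0) := by
    intro S
    by_cases hi : i ∈ S
    · have h1 : ∏ j ∈ Sᶜ, (if j = i then (0:ℝ) else 1) = 1 := by
        apply Finset.prod_eq_one
        intro j hj
        have : j ≠ i := by
          rintro rfl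
          exact (Finset.mem_compl.mp hj) hi
        simp [this]
      rw [h1, if_pos hi]; simp
    · have h1 : ∏ j ∈ Sᶜ, (if j = i then (0:ℝ) else 1) = 0 := by
        apply Finset.prod_eq_zero (i := i) (Finset.mem_compl.mpr hi); simp
      rw [h1, if_neg hi]; simp
  rw [Finset.sum_congr rfl (fun S _ => hL S)] at h
  rw [h]
  have hK : ∀ x y : Fin n → Bool,
      ∏ j, (wt r (x j) * wt r (y j) *
        (1 * (psi r (x j) * psi r (y j) / (1 - r ^ 2)) + (if j = i then 0 else 1)))
      = (1 - r ^ 2) / 4 * ((if x = y then wp r i x else 0) - Mk r i x y) := by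
    intro x y
    have h3 : ∀ j, wt r (x j) * wt r (y j) *
        (1 * (psi r (x j) * psi r (y j) / (1 - r ^ 2)) + (if j = i then 0 else 1))
        = if j = i then (1 - r ^ 2) / 4 * (sgn (x j) * sgn (y j))
          else (if x j = y j then wt r (x j) else 0) := by
      intro j
      by_cases hj : j = i
      · rw [if_pos hj, if_pos hj, ker_inf r hs]
      · rw [if_neg hj, if_neg hj, ker_eq r hs]
    rw [Finset.prod_congr rfl (fun j _ => h3 j), prod_special, diag_kernel]
    unfold Mk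
    rw [prod_special]
    cases hx : x i <;> cases hy : y i <;> simp [sgn]
  have hx : ∀ x : Fin n → Bool, ∑ y : Fin n → Bool, g x * g y *
      ∏ j, (wt r (x j) * wt r (y j) *
        (1 * (psi r (x j) * psi r (y j) / (1 - r ^ 2)) + (if j = i then 0 else 1)))
      = (1 - r ^ 2) / 4 * (wp r i x * g x ^ 2)
        - (1 - r ^ 2) / 4 * ∑ y : Fin n → Bool, Mk r i x y * (g x * g y) := by
    intro x
    have hy : ∀ y : Fin n → Bool, g x * g y *
      ∏ j, (wt r (x j) * wt r (y j) *
        (1 * (psi r (x j) * psi r (y j) / (1 - r ^ 2)) + (if j = i then 0 else 1)))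
      = (if x = y then (1 - r ^ 2) / 4 * (wp r i x * g x ^ 2) else 0)
        - (1 - r ^ 2) / 4 * (Mk r i x y * (g x * g y)) := by
      intro y
      rw [hK]
      by_cases hxy : x = y
      · subst hxy
        simp only [if_true]
        ring
      · simp only [hxy, if_false]
        ring
    rw [Finset.sum_congr rfl (fun y _ => hy y), Finset.sum_sub_distrib, Finset.sum_ite_eq,
      ← Finset.mul_sum]
    simp
  rw [Finset.sum_congr rfl (fun x _ => hx x), Finset.sum_sub_distrib, ← Finset.mul_sum,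
    ← Finset.mul_sum, ← mul_sub]

lemma cc_singleton {n : ℕ} (r : ℝ) (g : (Fin n → Bool) → ℝ) (i : Fin n) :
    cc r g {i} = (1 - r ^ 2) / 2 * ∑ x : Fin n → Bool, wp r i x * (sgn (x i) * g x) := by
  unfold cc
  rw [Finset.mul_sum]
  apply Finset.sum_congr rfl
  intro x _
  rw [Finset.prod_singleton]
  have h1 : ∏ j, wt r (x j) = wt r (x i) * ∏ j ∈ univ.erase i, wt r (x j) :=
    (Finset.mul_prod_erase univ _ (Finset.mem_univ i)).symm
  unfold wp
  rw [prod_special, h1]
  have h2 := wt_mul_psi r (x i)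
  calc (wt r (x i) * ∏ j ∈ univ.erase i, wt r (x j)) * g x * psi r (x i)
      = (wt r (x i) * psi r (x i)) * ((∏ j ∈ univ.erase i, wt r (x j)) * g x) := by ring
    _ = _ := by rw [h2]; ring

lemma cc_singleton' {n : ℕ} (r : ℝ) (g : (Fin n → Bool) → ℝ) (i : Fin n) :
    cc r g {i} = (1 - r ^ 2) / 4 *
      ∑ x : Fin n → Bool, ∑ y : Fin n → Bool, Mk r i x y * (sgn (x i) * (g x - g y)) := by
  have h1 : ∑ x : Fin n → Bool, ∑ y : Fin n → Bool, Mk r i x y * (sgn (x i) * g x)
      = ∑ x : Fin n → Bool, wp r i x * (sgn (x i) * g x) := by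
    apply Finset.sum_congr rfl
    intro x _
    rw [← Finset.sum_mul, sum_Mk_right]
  have h2 : ∑ x : Fin n → Bool, ∑ y : Fin n → Bool, Mk r i x y * (sgn (x i) * g y)
      = - ∑ x : Fin n → Bool, wp r i x * (sgn (x i) * g x) := by
    rw [Finset.sum_comm, ← Finset.sum_neg_distrib]
    apply Finset.sum_congr rfl
    intro y _
    rw [← sum_Mk_left, Finset.sum_mul, ← Finset.sum_neg_distrib]
    apply Finset.sum_congr rfl
    intro x _
    have := Mk_sgn r i x y
    calc Mk r i x y * (sgn (x i) * g y) = (Mk r i x y * sgn (x i)) * g y := by ring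
      _ = _ := by rw [this]; ring
  have h3 : ∑ x : Fin n → Bool, ∑ y : Fin n → Bool, Mk r i x y * (sgn (x i) * (g x - g y))
      = ∑ x : Fin n → Bool, ∑ y : Fin n → Bool, Mk r i x y * (sgn (x i) * g x)
        - ∑ x : Fin n → Bool, ∑ y : Fin n → Bool, Mk r i x y * (sgn (x i) * g y) := by
    rw [← Finset.sum_sub_distrib]
    apply Finset.sum_congr rfl
    intro x _
    rw [← Finset.sum_sub_distrib]
    apply Finset.sum_congr rfl
    intro y _
    ring
  rw [h3, h1, h2, cc_singleton]
  ring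

lemma inf_formula_sgn {n : ℕ} (r : ℝ) (hs : 1 - r ^ 2 ≠ 0) (f : (Fin n → Bool) → Bool) (i : Fin n) :
    ∑ S : Finset (Fin n),
        (if i ∈ S then cc r (fun x => sgn (f x)) S ^ 2 / (1 - r ^ 2) ^ S.card else 0)
      = (1 - r ^ 2) / 4 *
        ∑ x : Fin n → Bool, ∑ y : Fin n → Bool, Mk r i x y * (1 - sgn (f x) * sgn (f y)) := by
  rw [inf_formula r hs]
  congr 1
  have h1 : ∑ x : Fin n → Bool, wp r i x * sgn (f x) ^ 2
      = ∑ x : Fin n → Bool, ∑ y : Fin n → Bool, Mk r i x y := by
    apply Finset.sum_congr rfl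
    intro x _
    rw [sgn_sq', mul_one, sum_Mk_right]
  rw [h1, ← Finset.sum_sub_distrib]
  apply Finset.sum_congr rfl
  intro x _
  rw [← Finset.sum_sub_distrib]
  apply Finset.sum_congr rfl
  intro y _
  ring

lemma abs_cc_le_inf {n : ℕ} {r : ℝ} (h : |r| < 1) (f : (Fin n → Bool) → Bool) (i : Fin n) :
    |cc r (fun x => sgn (f x)) {i}| ≤ ∑ S : Finset (Fin n),
        (if i ∈ S then cc r (fun x => sgn (f x)) S ^ 2 / (1 - r ^ 2) ^ S.card else 0) := by
  have hs : 0 < 1 - r ^ 2 := by
    have := (sq_lt_one_iff_abs_lt_one r).mpr h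
    linarith
  rw [inf_formula_sgn r hs.ne', cc_singleton']
  rw [abs_le]
  constructor
  · rw [← sub_nonneg, sub_neg_eq_add, ← mul_add, ← Finset.sum_add_distrib]
    apply mul_nonneg (by positivity)
    apply Finset.sum_nonneg
    intro x _
    rw [← Finset.sum_add_distrib]
    apply Finset.sum_nonneg
    intro y _
    rw [← mul_add]
    apply mul_nonneg (Mk_nonneg h.le i x y)
    cases f x <;> cases f y <;> cases x i <;> simp [sgn]
  · rw [← sub_nonneg, ← mul_sub, ← Finset.sum_sub_distrib]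
    apply mul_nonneg (by positivity)
    apply Finset.sum_nonneg
    intro x _
    rw [← Finset.sum_sub_distrib]
    apply Finset.sum_nonneg
    intro y _
    rw [← mul_sub]
    apply mul_nonneg (Mk_nonneg h.le i x y)
    cases f x <;> cases f y <;> cases x i <;> simp [sgn] <;> norm_num

end Biased

open Biased in
theorem PhiFn_abs_le_one {n : ℕ} (f : (Fin n → Bool) → Bool) {r : ℝ} (h : |r| ≤ 1) :
    |PhiFn f r| ≤ 1 := by
  rw [← cc_empty]
  unfold cc
  simp only [Finset.prod_empty, mul_one]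
  calc |∑ x : Fin n → Bool, (∏ j, wt r (x j)) * sgn (f x)|
      ≤ ∑ x : Fin n → Bool, |(∏ j, wt r (x j)) * sgn (f x)| := Finset.abs_sum_le_sum_abs _ _
    _ = ∑ x : Fin n → Bool, ∏ j, wt r (x j) := by
        apply Finset.sum_congr rfl
        intro x _
        rw [abs_mul, sgn_abs, mul_one,
          abs_of_nonneg (Finset.prod_nonneg (fun j _ => wt_nonneg h (x j)))]
    _ = 1 := sum_weights r

open Biased in
theorem biased_ineq {n d : ℕ} (f : (Fin n → Bool) → Bool) (hd : DegLE f d) {r : ℝ} (h : |r| < 1) :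
    (1 - r ^ 2) * |dPhiFn f r| ≤ d * (1 - PhiFn f r ^ 2) := by
  have hs : 0 < 1 - r ^ 2 := by
    have := (sq_lt_one_iff_abs_lt_one r).mpr h
    linarith
  set q : Finset (Fin n) → ℝ :=
    fun S => cc r (fun x => sgn (f x)) S ^ 2 / (1 - r ^ 2) ^ S.card with hq
  have hq0 : ∀ S, 0 ≤ q S := fun S => by
    simp only [hq]
    positivity
  have hsum : ∑ S : Finset (Fin n), q S = 1 := by
    simp only [hq]
    rw [parseval r hs.ne']
    simp only [sgn_sq', mul_one]
    exact sum_weights r
  have hqe : q ∅ = PhiFn f r ^ 2 := by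
    simp only [hq]
    rw [cc_empty]
    simp
  have h1 : (1 - r ^ 2) * |dPhiFn f r| = |∑ i : Fin n, cc r (fun x => sgn (f x)) {i}| := by
    rw [sum_cc_singleton, abs_mul, abs_of_pos hs]
  have h2 : |∑ i : Fin n, cc r (fun x => sgn (f x)) {i}|
      ≤ ∑ i : Fin n, ∑ S : Finset (Fin n), (if i ∈ S then q S else 0) :=
    (Finset.abs_sum_le_sum_abs _ _).trans (Finset.sum_le_sum (fun i _ => abs_cc_le_inf h f i))
  have h3 : ∑ i : Fin n, ∑ S : Finset (Fin n), (if i ∈ S then q S else 0)
      = ∑ S : Finset (Fin n), (S.card : ℝ) * q S := by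
    rw [Finset.sum_comm]
    apply Finset.sum_congr rfl
    intro S _
    rw [Finset.sum_ite_mem, Finset.univ_inter, Finset.sum_const, nsmul_eq_mul]
  have h4 : ∀ S : Finset (Fin n),
      (S.card : ℝ) * q S ≤ d * (q S - (if S = ∅ then q ∅ else 0)) := by
    intro S
    by_cases hS : S = ∅
    · subst hS; simp
    · rw [if_neg hS, sub_zero]
      by_cases hc : S.card ≤ d
      · exact mul_le_mul_of_nonneg_right (by exact_mod_cast hc) (hq0 S)
      · have : q S = 0 := by
          simp only [hq]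
          rw [cc_zero_of_deg r f hd S (not_le.mp hc)]
          simp
        rw [this]; simp
  have h5 : ∑ S : Finset (Fin n), (d : ℝ) * (q S - (if S = ∅ then q ∅ else 0))
      = d * (1 - PhiFn f r ^ 2) := by
    rw [← Finset.mul_sum, Finset.sum_sub_distrib, hsum, Finset.sum_ite_eq', hqe]
    simp
  rw [h1]
  calc _ ≤ _ := h2
    _ = _ := h3
    _ ≤ _ := Finset.sum_le_sum (fun S _ => h4 S)
    _ = _ := h5

end Vale.Agent.P047
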