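import Mathlib

namespace Vale.Agent.P047

open Polynomial Finset

/-- `k`-th derivative of the Chebyshev polynomial `T_d` at `1`. -/
noncomputable def chD (d k : ℕ) : ℝ := (derivative^[k] (Chebyshev.T ℝ d)).eval 1

lemma chD_nonneg (d k : ℕ) : 0 ≤ chD d k := by
  have h := Polynomial.Chebyshev.abs_iterate_derivative_T_real_le (d : ℤ) k (x := 1) (by simp)
  exact le_trans (abs_nonneg _) h

lemma chD_zero (d : ℕ) : chD d 0 = 1 := by
  simp [chD]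

lemma chD_rec (d k : ℕ) : (2 * (k:ℝ) + 1) * chD d (k + 1) = ((d:ℝ) ^ 2 - (k:ℝ) ^ 2) * chD d k := by
  have h := Polynomial.Chebyshev.iterate_derivative_T_eval_one_recurrence (R := ℝ) (d : ℤ) k
  simpa [chD] using h

lemma chD_one (d : ℕ) : chD d 1 = (d:ℝ) ^ 2 := by
  have h := chD_rec d 0
  rw [chD_zero] at h
  simpa using h

lemma chD_two (d : ℕ) : chD d 2 = (d:ℝ) ^ 2 * ((d:ℝ) ^ 2 - 1) / 3 := by
  have h := chD_rec d 1
  rw [chD_one] at h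
  norm_num at h
  linarith

/-- normalised quantity `2^k D_k / (2 k!)`. -/
noncomputable def chG (d k : ℕ) : ℝ := 2 ^ k * chD d k / (2 * (k.factorial : ℝ))

lemma chG_nonneg (d k : ℕ) : 0 ≤ chG d k := by
  unfold chG
  have := chD_nonneg d k
  positivity

lemma chG_two_le (d : ℕ) : chG d 2 ≤ (d:ℝ) ^ 4 / 3 := by
  unfold chG
  rw [chD_two]
  norm_num [Nat.factorial]
  nlinarith [sq_nonneg (d:ℝ)]

lemma chG_succ_le (d k : ℕ) (hk : 2 ≤ k) : chG d (k + 1) ≤ chG d k * (2 * (d:ℝ) ^ 2 / 15) := by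
  have h := chD_rec d k
  have h0 := chD_nonneg d k
  have hk' : (2:ℝ) ≤ k := by exact_mod_cast hk
  have hf : (0:ℝ) < (k.factorial : ℝ) := by exact_mod_cast Nat.factorial_pos k
  have h1 : chD d (k + 1) ≤ (d:ℝ) ^ 2 * chD d k / (2 * k + 1) := by
    rw [le_div_iff₀ (by positivity)]
    nlinarith [mul_nonneg (sq_nonneg (k:ℝ)) h0]
  unfold chG
  rw [Nat.factorial_succ]
  push_cast
  have h2 : 2 ^ (k + 1) * chD d (k + 1) / (2 * (((k:ℝ) + 1) * (k.factorial : ℝ)))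
      ≤ 2 ^ (k + 1) * ((d:ℝ) ^ 2 * chD d k / (2 * k + 1)) / (2 * (((k:ℝ) + 1) * (k.factorial : ℝ))) := by
    gcongr
  refine le_trans h2 ?_
  have h3 : 2 ^ (k + 1) * ((d:ℝ) ^ 2 * chD d k / (2 * k + 1)) / (2 * (((k:ℝ) + 1) * (k.factorial : ℝ)))
      = (2 ^ k * chD d k / (2 * (k.factorial : ℝ))) * (2 * (d:ℝ) ^ 2 / ((2 * k + 1) * (k + 1))) := by
    field_simp
    ring
  rw [h3]
  have h4 : (15:ℝ) ≤ (2 * k + 1) * (k + 1) := by nlinarith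
  gcongr

lemma chG_le_geom (d j : ℕ) : chG d (j + 2) ≤ (d:ℝ) ^ 4 / 3 * (2 * (d:ℝ) ^ 2 / 15) ^ j := by
  induction j with
  | zero => simpa using chG_two_le d
  | succ j ih =>
    have h := chG_succ_le d (j + 2) (by omega)
    have hq : (0:ℝ) ≤ 2 * (d:ℝ) ^ 2 / 15 := by positivity
    calc chG d (j + 1 + 2) = chG d (j + 2 + 1) := by ring_nf
      _ ≤ chG d (j + 2) * (2 * (d:ℝ) ^ 2 / 15) := h
      _ ≤ ((d:ℝ) ^ 4 / 3 * (2 * (d:ℝ) ^ 2 / 15) ^ j) * (2 * (d:ℝ) ^ 2 / 15) := by gcongr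
      _ = (d:ℝ) ^ 4 / 3 * (2 * (d:ℝ) ^ 2 / 15) ^ (j + 1) := by ring

end Vale.Agent.P047
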