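import Vale.Agent.Lib.P047.Cheb

namespace Vale.Agent.P047

open Polynomial Finset

/-- the auxiliary polynomial `Q(y) = 1 - 2 G((1-y)/2)`. -/
noncomputable def auxQ (G : ℝ[X]) : ℝ[X] := 1 - C 2 * ((G.comp (C (1/2) * X)).comp (1 - X))

lemma auxQ_eval (G : ℝ[X]) (y : ℝ) : (auxQ G).eval y = 1 - 2 * G.eval ((1 - y) / 2) := by
  unfold auxQ
  simp only [eval_sub, eval_one, eval_mul, eval_C, eval_comp, eval_X]
  congr 3
  ring

lemma auxQ_natDegree (G : ℝ[X]) {d : ℕ} (h : G.natDegree ≤ d) : (auxQ G).natDegree ≤ d := by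
  unfold auxQ
  have h1 : (G.comp (C (1/2) * X)).natDegree ≤ d := by
    refine le_trans natDegree_comp_le ?_
    have : (C (1/2 : ℝ) * X).natDegree ≤ 1 := le_of_eq (natDegree_C_mul_X _ (by norm_num))
    calc G.natDegree * (C (1/2 : ℝ) * X).natDegree ≤ d * 1 := Nat.mul_le_mul h this
      _ = d := by ring
  have h2 : ((G.comp (C (1/2) * X)).comp (1 - X)).natDegree ≤ d := by
    refine le_trans natDegree_comp_le ?_
    have : ((1 : ℝ[X]) - X).natDegree ≤ 1 := by
      refine le_trans (natDegree_sub_le _ _) ?_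
      simp
    calc (G.comp (C (1/2) * X)).natDegree * ((1 : ℝ[X]) - X).natDegree ≤ d * 1 := Nat.mul_le_mul h1 this
      _ = d := by ring
  refine le_trans (natDegree_sub_le _ _) ?_
  simp only [natDegree_one]
  refine max_le (Nat.zero_le _) ?_
  exact le_trans (natDegree_C_mul_le _ _) h2

lemma auxQ_iter (G : ℝ[X]) {k : ℕ} (hk : 0 < k) :
    (derivative^[k] (auxQ G)).eval 1
      = - (2 * (-1) ^ k * ((k.factorial : ℝ) * (G.coeff k * (1/2) ^ k))) := by
  unfold auxQ
  rw [iterate_derivative_sub, iterate_derivative_one hk, iterate_derivative_C_mul,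
    iterate_derivative_comp_one_sub_X]
  simp only [zero_sub, eval_neg, eval_mul, eval_C, eval_pow, eval_one, eval_comp, eval_sub, eval_X,
    sub_self]
  rw [← coeff_zero_eq_eval_zero, coeff_iterate_derivative, comp_C_mul_X_coeff]
  simp only [zero_add, Nat.descFactorial_self, nsmul_eq_mul]
  ring

theorem coeff_bound (G : ℝ[X]) {d : ℕ} (hdeg : G.natDegree ≤ d)
    (h01 : ∀ z : ℝ, 0 ≤ z → z ≤ 1 → 0 ≤ G.eval z ∧ G.eval z ≤ 1) {k : ℕ} (hk : 0 < k) :
    |G.coeff k| ≤ chG d k := by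
  have hb : ∀ x ∈ Set.Icc (-1 : ℝ) 1, |(auxQ G).eval x| ≤ 1 := by
    intro x hx
    rw [auxQ_eval]
    obtain ⟨h1, h2⟩ := h01 ((1 - x) / 2) (by linarith [hx.2]) (by linarith [hx.1])
    rw [abs_le]
    constructor <;> linarith
  have hb' : ∀ x ∈ Set.Icc (-1 : ℝ) 1, |(-(auxQ G)).eval x| ≤ 1 := by
    intro x hx
    rw [eval_neg, abs_neg]
    exact hb x hx
  have hd1 : (auxQ G).degree ≤ d := degree_le_of_natDegree_le (auxQ_natDegree G hdeg)
  have hd2 : (-(auxQ G)).degree ≤ d := by rw [degree_neg]; exact hd1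
  have e1 := Polynomial.Chebyshev.eval_iterate_derivative_le_of_forall_abs_le_one (k := k)
    (x := 1) le_rfl hd1 hb
  have e2 := Polynomial.Chebyshev.eval_iterate_derivative_le_of_forall_abs_le_one (k := k)
    (x := 1) le_rfl hd2 hb'
  rw [iterate_derivative_neg, eval_neg] at e2
  rw [auxQ_iter G hk] at e1 e2
  have hf : (0:ℝ) < (k.factorial : ℝ) := by exact_mod_cast Nat.factorial_pos k
  have hp : (0:ℝ) < 2 ^ k := by positivity
  change _ ≤ chD d k at e1
  change _ ≤ chD d k at e2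
  unfold chG
  rw [le_div_iff₀ (by positivity)]
  have hs : ((-1:ℝ)) ^ k = 1 ∨ ((-1:ℝ)) ^ k = -1 := neg_one_pow_eq_or ℝ k
  have hhalf : ((1:ℝ)/2) ^ k = 1 / 2 ^ k := by rw [div_pow, one_pow]
  rw [hhalf] at e1 e2
  have key : |G.coeff k| * (2 * (k.factorial : ℝ)) / 2 ^ k ≤ chD d k := by
    rcases hs with hs | hs <;> rw [hs] at e1 e2 <;>
    · rcases abs_cases (G.coeff k) with ⟨ha, _⟩ | ⟨ha, _⟩ <;> rw [ha]
      · have : G.coeff k * (2 * (k.factorial : ℝ)) / 2 ^ k
            = 2 * ((k.factorial : ℝ) * (G.coeff k * (1 / 2 ^ k))) := by field_simp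
        linarith
      · have : -G.coeff k * (2 * (k.factorial : ℝ)) / 2 ^ k
            = - (2 * ((k.factorial : ℝ) * (G.coeff k * (1 / 2 ^ k)))) := by field_simp
        linarith
  rw [div_le_iff₀ hp] at key
  linarith

end Vale.Agent.P047
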