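import Vale.Agent.Lib.P047.Odd

namespace Vale.Agent.P047

open Polynomial Finset Set

/-- odd part of `P`. -/
noncomputable def phiP (P : ℝ[X]) : ℝ[X] := C (1/2) * (P - P.comp (-X))

lemma phiP_eval (P : ℝ[X]) (x : ℝ) : (phiP P).eval x = (P.eval x - P.eval (-x)) / 2 := by
  unfold phiP
  simp only [eval_mul, eval_C, eval_sub, eval_comp, eval_neg, eval_X]
  ring

lemma phiP_deriv_eval (P : ℝ[X]) (x : ℝ) :
    (derivative (phiP P)).eval x = ((derivative P).eval x + (derivative P).eval (-x)) / 2 := by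
  unfold phiP
  simp only [derivative_mul, derivative_C, zero_mul, zero_add, derivative_sub, derivative_comp,
    derivative_neg, derivative_X, eval_mul, eval_C, eval_sub, eval_comp, eval_neg, eval_X, eval_one]
  ring

lemma phiP_ineq (P : ℝ[X]) {d : ℕ}
    (hii : ∀ r : ℝ, |r| < 1 → (1 - r ^ 2) * |(derivative P).eval r| ≤ d * (1 - (P.eval r) ^ 2))
    {x : ℝ} (hx : |x| < 1) :
    (1 - x ^ 2) * |(derivative (phiP P)).eval x| ≤ d * (1 - ((phiP P).eval x) ^ 2) := by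
  have h1 := hii x hx
  have h2 := hii (-x) (by rwa [abs_neg])
  rw [neg_sq] at h2
  rw [phiP_eval, phiP_deriv_eval]
  have hpos : 0 ≤ 1 - x ^ 2 := by
    have := sq_lt_one_iff_abs_lt_one x |>.mpr hx
    linarith
  have h3 : |((derivative P).eval x + (derivative P).eval (-x)) / 2|
      ≤ (|(derivative P).eval x| + |(derivative P).eval (-x)|) / 2 := by
    rw [abs_div, abs_of_pos (by norm_num : (0:ℝ) < 2)]
    gcongr
    exact abs_add_le _ _
  have h4 : (1 - x ^ 2) * |((derivative P).eval x + (derivative P).eval (-x)) / 2|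
      ≤ (1 - x ^ 2) * ((|(derivative P).eval x| + |(derivative P).eval (-x)|) / 2) := by
    gcongr
  have hd0 : (0:ℝ) ≤ d := Nat.cast_nonneg d
  have h5 : ((P.eval x - P.eval (-x)) / 2) ^ 2 ≤ ((P.eval x) ^ 2 + (P.eval (-x)) ^ 2) / 2 := by
    nlinarith [sq_nonneg (P.eval x + P.eval (-x))]
  have h6 : (d:ℝ) * ((P.eval x - P.eval (-x)) / 2) ^ 2 ≤ d * (((P.eval x) ^ 2 + (P.eval (-x)) ^ 2) / 2) := by
    gcongr
  nlinarith

/-- comparison polynomial for the Picard step. -/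
noncomputable def cmpB (d : ℕ) : ℝ[X] :=
  C (d:ℝ) * X - C (7001 / 30000 * (d:ℝ) ^ 3) * X ^ 3 + C (85572 / 5000000 * (d:ℝ) ^ 5) * X ^ 5
    + C (1008 / 70000 * (d:ℝ) ^ 7) * X ^ 7

lemma cmpB_eval (d : ℕ) (x : ℝ) : (cmpB d).eval x =
    (d * x) - 7001 / 30000 * (d * x) ^ 3 + 85572 / 5000000 * (d * x) ^ 5
      + 1008 / 70000 * (d * x) ^ 7 := by
  unfold cmpB
  simp only [eval_add, eval_sub, eval_mul, eval_C, eval_X, eval_pow]
  ring

lemma cmpB_deriv_eval (d : ℕ) (x : ℝ) : (derivative (cmpB d)).eval x =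
    d * ((1 - 9801 / 10000 * (d * x) ^ 2 + 36 / 100 * (d * x) ^ 4) * (1 + 28 / 100 * (d * x) ^ 2)) := by
  unfold cmpB
  simp only [derivative_add, derivative_sub, derivative_mul, derivative_C, zero_mul, zero_add,
    derivative_X, derivative_X_pow, eval_add, eval_sub, eval_mul, eval_C, eval_X, eval_pow,
    eval_one, mul_one, eval_natCast, Nat.cast_ofNat]
  norm_num
  ring

theorem core {d : ℕ} (hd : 2 ≤ d) (P : ℝ[X]) (hdeg : P.natDegree ≤ d)
    (hb : ∀ r : ℝ, |r| ≤ 1 → |P.eval r| ≤ 1)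
    (hii : ∀ r : ℝ, |r| < 1 → (1 - r ^ 2) * |(derivative P).eval r| ≤ d * (1 - (P.eval r) ^ 2)) :
    P.coeff 1 ≤ 99 / 100 * d := by
  by_contra hcon
  push_neg at hcon
  have hd2 : (2:ℝ) ≤ d := by exact_mod_cast hd
  have hdpos : (0:ℝ) < d := by linarith
  set W := P.coeff 1 with hW
  have hWpos : 0 < W := by nlinarith
  set r0 : ℝ := 3 / (5 * d) with hr0
  have hr0pos : 0 < r0 := by positivity
  have hdr0 : (d:ℝ) * r0 = 3 / 5 := by rw [hr0]; field_simp
  -- lower bound for phi^2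
  have hlow : ∀ x : ℝ, 0 ≤ x → x ≤ r0 →
      W ^ 2 * x ^ 2 - 36 / 100 * (d * x) ^ 4 ≤ ((phiP P).eval x) ^ 2 := by
    intro x hx0 hx1
    have hdx : (d:ℝ) * x ≤ 3 / 5 := by rw [← hdr0]; gcongr
    have hdx0 : 0 ≤ (d:ℝ) * x := by positivity
    have hz : (d:ℝ) ^ 2 * x ^ 2 ≤ 9 / 25 := by
      have : (d:ℝ) ^ 2 * x ^ 2 = (d * x) ^ 2 := by ring
      rw [this]; nlinarith
    have h := G_lower (sqG P d) (sqG_natDegree P (by omega) hdeg) (sqG_01 P hdeg hb)
      (sqG_coeff_zero P d) (sq_nonneg x) hz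
    rw [sqG_coeff_one, sqG_eval_sq P hdeg x, ← phiP_eval] at h
    have e : (d:ℝ) ^ 4 * (x ^ 2) ^ 2 = (d * x) ^ 4 := by ring
    rw [e] at h
    exact h
  -- derivative bound
  have hder : ∀ x ∈ Ico (0:ℝ) r0, ‖(derivative (phiP P)).eval x‖ ≤ (derivative (cmpB d)).eval x := by
    intro x hx
    have hx0 := hx.1
    have hx1 := le_of_lt hx.2
    have hdx : (d:ℝ) * x ≤ 3 / 5 := by rw [← hdr0]; gcongr
    have hdx0 : 0 ≤ (d:ℝ) * x := by positivity
    set t := (d:ℝ) * x with ht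
    have hxt : x ≤ t / 2 := by
      rw [ht]; nlinarith
    have hxabs : |x| < 1 := by
      rw [abs_of_nonneg hx0]; linarith
    have h1 := phiP_ineq P hii hxabs
    have h2 := hlow x hx0 hx1
    have hWx : (99 / 100 * t) ^ 2 ≤ W ^ 2 * x ^ 2 := by
      have : 99 / 100 * t ≤ W * x := by
        rw [ht]; nlinarith
      have h0 : 0 ≤ 99 / 100 * t := by positivity
      calc (99 / 100 * t) ^ 2 ≤ (W * x) ^ 2 := by gcongr
        _ = W ^ 2 * x ^ 2 := by ring
    set A := 1 - 9801 / 10000 * t ^ 2 + 36 / 100 * t ^ 4 with hA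
    have h3 : 1 - ((phiP P).eval x) ^ 2 ≤ A := by
      rw [hA]; nlinarith
    have h4 : (1 - x ^ 2) * |(derivative (phiP P)).eval x| ≤ d * A := by
      refine le_trans h1 ?_
      gcongr
    have hx2 : x ^ 2 ≤ t ^ 2 / 4 := by nlinarith
    have ht2 : t ^ 2 ≤ 9 / 25 := by nlinarith
    have h5 : 1 ≤ (1 - x ^ 2) * (1 + 28 / 100 * t ^ 2) := by
      have : (1 - t ^ 2 / 4) * (1 + 28 / 100 * t ^ 2) ≤ (1 - x ^ 2) * (1 + 28 / 100 * t ^ 2) := by
        gcongr
      nlinarith [sq_nonneg t]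
    rw [cmpB_deriv_eval, Real.norm_eq_abs]
    have habs := abs_nonneg ((derivative (phiP P)).eval x)
    calc |(derivative (phiP P)).eval x|
        ≤ |(derivative (phiP P)).eval x| * ((1 - x ^ 2) * (1 + 28 / 100 * t ^ 2)) := by
          nlinarith
      _ = ((1 - x ^ 2) * |(derivative (phiP P)).eval x|) * (1 + 28 / 100 * t ^ 2) := by ring
      _ ≤ (d * A) * (1 + 28 / 100 * t ^ 2) := by gcongr
      _ = d * (A * (1 + 28 / 100 * t ^ 2)) := by ring
  have hmain := image_norm_le_of_norm_deriv_right_le_deriv_boundary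
    (f := fun x => (phiP P).eval x) (f' := fun x => (derivative (phiP P)).eval x)
    (a := 0) (b := r0) (B := fun x => (cmpB d).eval x) (B' := fun x => (derivative (cmpB d)).eval x)
    ((phiP P).continuous.continuousOn)
    (fun x _ => ((phiP P).hasDerivAt x).hasDerivWithinAt)
    (by simp [phiP_eval, cmpB_eval])
    (fun x => (cmpB d).hasDerivAt x) hder
  have hfin := hmain (x := r0) ⟨le_of_lt hr0pos, le_rfl⟩
  simp only [Real.norm_eq_abs] at hfin
  rw [cmpB_eval, hdr0] at hfin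
  have hl := hlow r0 (le_of_lt hr0pos) le_rfl
  rw [hdr0] at hl
  have hWr : (99 / 100 * (3 / 5 : ℝ)) ^ 2 < W ^ 2 * r0 ^ 2 := by
    have : 99 / 100 * (3 / 5 : ℝ) < W * r0 := by
      rw [← hdr0]; nlinarith
    calc (99 / 100 * (3 / 5 : ℝ)) ^ 2 < (W * r0) ^ 2 := by gcongr
      _ = W ^ 2 * r0 ^ 2 := by ring
  have hsq : ((phiP P).eval r0) ^ 2 ≤ ((3 / 5 : ℝ) - 7001 / 30000 * (3 / 5) ^ 3
      + 85572 / 5000000 * (3 / 5) ^ 5 + 1008 / 70000 * (3 / 5) ^ 7) ^ 2 := by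
    rw [← sq_abs ((phiP P).eval r0)]
    gcongr
  norm_num at hsq hl hWr
  linarith

end Vale.Agent.P047
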