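import Vale.Agent.Lib.P047.Odd

namespace Vale.Agent.P047

open Polynomial Finset

lemma chG_two (d : ℕ) : chG d 2 = (d:ℝ) ^ 2 * ((d:ℝ) ^ 2 - 1) / 3 := by
  unfold chG
  rw [chD_two]
  norm_num [Nat.factorial]

lemma chG_le_geom2 (d j : ℕ) :
    chG d (j + 2) ≤ (d:ℝ) ^ 2 * ((d:ℝ) ^ 2 - 1) / 3 * (2 * (d:ℝ) ^ 2 / 15) ^ j := by
  induction j with
  | zero => simpa using le_of_eq (chG_two d)
  | succ j ih =>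
    have h := chG_succ_le d (j + 2) (by omega)
    have hq : (0:ℝ) ≤ 2 * (d:ℝ) ^ 2 / 15 := by positivity
    calc chG d (j + 1 + 2) = chG d (j + 2 + 1) := by ring_nf
      _ ≤ chG d (j + 2) * (2 * (d:ℝ) ^ 2 / 15) := h
      _ ≤ ((d:ℝ) ^ 2 * ((d:ℝ) ^ 2 - 1) / 3 * (2 * (d:ℝ) ^ 2 / 15) ^ j) * (2 * (d:ℝ) ^ 2 / 15) := by
          gcongr
      _ = (d:ℝ) ^ 2 * ((d:ℝ) ^ 2 - 1) / 3 * (2 * (d:ℝ) ^ 2 / 15) ^ (j + 1) := by ring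

theorem G_lower2 (G : ℝ[X]) {d : ℕ} (hd : 1 ≤ d) (hdeg : G.natDegree ≤ d)
    (h01 : ∀ z : ℝ, 0 ≤ z → z ≤ 1 → 0 ≤ G.eval z ∧ G.eval z ≤ 1) (hG0 : G.coeff 0 = 0)
    {z : ℝ} (hz0 : 0 ≤ z) (hz : (d:ℝ) ^ 2 * z ≤ 49 / 100) :
    G.coeff 1 * z - 357 / 1000 * ((d:ℝ) ^ 2 * ((d:ℝ) ^ 2 - 1) * z ^ 2) ≤ G.eval z := by
  have hd1 : (1:ℝ) ≤ d := by exact_mod_cast hd
  have hdd : 0 ≤ (d:ℝ) ^ 2 - 1 := by nlinarith
  have hev : G.eval z = ∑ k ∈ range (d + 2), G.coeff k * z ^ k :=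
    eval_eq_sum_range' (by omega) z
  rw [hev, Finset.sum_range_succ', Finset.sum_range_succ', hG0]
  simp only [zero_add, pow_one, pow_zero, mul_one, add_zero]
  set q : ℝ := 2 * (d:ℝ) ^ 2 / 15 * z with hq
  have hq0 : 0 ≤ q := by positivity
  have hq1 : q ≤ 49 / 750 := by
    have : q = 2 / 15 * ((d:ℝ) ^ 2 * z) := by rw [hq]; ring
    rw [this]; linarith
  have hterm : ∀ j ∈ range d, - ((d:ℝ) ^ 2 * ((d:ℝ) ^ 2 - 1) * z ^ 2 / 3 * q ^ j)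
      ≤ G.coeff (j + 1 + 1) * z ^ (j + 1 + 1) := by
    intro j _
    have hc := coeff_bound G hdeg h01 (k := j + 2) (by omega)
    have hg := chG_le_geom2 d j
    have hzp : 0 ≤ z ^ (j + 2) := pow_nonneg hz0 _
    have h1 : - (chG d (j + 2)) ≤ G.coeff (j + 2) := by
      have := neg_abs_le (G.coeff (j + 2)); linarith
    have h2 : - (chG d (j + 2) * z ^ (j + 2)) ≤ G.coeff (j + 2) * z ^ (j + 2) := by
      nlinarith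
    have h3 : chG d (j + 2) * z ^ (j + 2)
        ≤ (d:ℝ) ^ 2 * ((d:ℝ) ^ 2 - 1) / 3 * (2 * (d:ℝ) ^ 2 / 15) ^ j * z ^ (j + 2) := by
      gcongr
    have h4 : (d:ℝ) ^ 2 * ((d:ℝ) ^ 2 - 1) / 3 * (2 * (d:ℝ) ^ 2 / 15) ^ j * z ^ (j + 2)
        = (d:ℝ) ^ 2 * ((d:ℝ) ^ 2 - 1) * z ^ 2 / 3 * q ^ j := by
      rw [hq, mul_pow]; ring
    have h5 : j + 1 + 1 = j + 2 := by ring
    rw [h5]
    linarith
  have hsum := Finset.sum_le_sum hterm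
  rw [Finset.sum_neg_distrib, ← Finset.mul_sum] at hsum
  have hgeo := geom_sum_le_inv hq0 (by linarith) d
  have hinv : 1 / (1 - q) ≤ 750 / 701 := by
    rw [div_le_div_iff₀ (by linarith) (by norm_num)]
    linarith
  have hA : 0 ≤ (d:ℝ) ^ 2 * ((d:ℝ) ^ 2 - 1) * z ^ 2 / 3 := by positivity
  have hfin : (d:ℝ) ^ 2 * ((d:ℝ) ^ 2 - 1) * z ^ 2 / 3 * ∑ j ∈ range d, q ^ j
      ≤ 357 / 1000 * ((d:ℝ) ^ 2 * ((d:ℝ) ^ 2 - 1) * z ^ 2) := by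
    have : (d:ℝ) ^ 2 * ((d:ℝ) ^ 2 - 1) * z ^ 2 / 3 * ∑ j ∈ range d, q ^ j
        ≤ (d:ℝ) ^ 2 * ((d:ℝ) ^ 2 - 1) * z ^ 2 / 3 * (750 / 701) := by
      gcongr
      linarith
    have h6 : 0 ≤ (d:ℝ) ^ 2 * ((d:ℝ) ^ 2 - 1) * z ^ 2 := by positivity
    linarith
  linarith

end Vale.Agent.P047
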