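import Vale.Agent.Lib.P047.Core
import Vale.Agent.Lib.P047.Lower2

namespace Vale.Agent.P047

open Polynomial Finset Set

/-- comparison polynomial for the Picard step (sharper version); `e` stands for `1/d^2`. -/
noncomputable def cmpB2 (d e : ℝ) : ℝ[X] :=
  C d * X + C ((57 / 50 * e - 9409 / 10000) / 3 * d ^ 3) * X ^ 3
    + C ((357 / 1000 * (1 - e) - 57 / 50 * e * (9409 / 10000)) / 5 * d ^ 5) * X ^ 5
    + C (57 / 50 * e * (357 / 1000 * (1 - e)) / 7 * d ^ 7) * X ^ 7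

lemma cmpB2_eval (d e x : ℝ) : (cmpB2 d e).eval x =
    (d * x) + (57 / 50 * e - 9409 / 10000) / 3 * (d * x) ^ 3
      + (357 / 1000 * (1 - e) - 57 / 50 * e * (9409 / 10000)) / 5 * (d * x) ^ 5
      + 57 / 50 * e * (357 / 1000 * (1 - e)) / 7 * (d * x) ^ 7 := by
  unfold cmpB2
  simp only [eval_add, eval_mul, eval_C, eval_X, eval_pow]
  ring

lemma cmpB2_deriv_eval (d e x : ℝ) : (derivative (cmpB2 d e)).eval x =
    d * ((1 - 9409 / 10000 * (d * x) ^ 2 + 357 / 1000 * (1 - e) * (d * x) ^ 4)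
      * (1 + 57 / 50 * e * (d * x) ^ 2)) := by
  unfold cmpB2
  simp only [derivative_add, derivative_mul, derivative_C, zero_mul, zero_add,
    derivative_X, derivative_X_pow, eval_add, eval_mul, eval_C, eval_X, eval_pow,
    mul_one, Nat.cast_ofNat]
  norm_num
  ring

lemma step_real {d e x W ph D : ℝ} (hd2 : 2 ≤ d) (hed : e * d ^ 2 = 1) (hepos : 0 < e)
    (hx0 : 0 ≤ x) (hdx : d * x ≤ 7 / 10) (hW : 97 / 100 * d < W) (hD : 0 ≤ D)
    (h1 : (1 - x ^ 2) * D ≤ d * (1 - ph ^ 2))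
    (h2 : W ^ 2 * x ^ 2 - 357 / 1000 * (1 - e) * (d * x) ^ 4 ≤ ph ^ 2) :
    D ≤ d * ((1 - 9409 / 10000 * (d * x) ^ 2 + 357 / 1000 * (1 - e) * (d * x) ^ 4)
      * (1 + 57 / 50 * e * (d * x) ^ 2)) := by
  have hdpos : 0 < d := by linarith
  have hdx0 : 0 ≤ d * x := by positivity
  set t := d * x with ht
  have hxt : x ≤ t / 2 := by
    rw [ht]; nlinarith
  have hWx : (97 / 100 * t) ^ 2 ≤ W ^ 2 * x ^ 2 := by
    have : 97 / 100 * t ≤ W * x := by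
      rw [ht]; nlinarith
    have h0 : 0 ≤ 97 / 100 * t := by positivity
    calc (97 / 100 * t) ^ 2 ≤ (W * x) ^ 2 := by gcongr
      _ = W ^ 2 * x ^ 2 := by ring
  set A := 1 - 9409 / 10000 * t ^ 2 + 357 / 1000 * (1 - e) * t ^ 4 with hA
  have h3 : 1 - ph ^ 2 ≤ A := by
    rw [hA]; nlinarith
  have h4 : (1 - x ^ 2) * D ≤ d * A := by
    refine le_trans h1 ?_
    gcongr
  have hx2e : x ^ 2 = e * t ^ 2 := by
    have : e * t ^ 2 = (e * d ^ 2) * x ^ 2 := by rw [ht]; ring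
    rw [this, hed, one_mul]
  have hx2 : x ^ 2 ≤ 49 / 400 := by nlinarith
  have h5 : 1 ≤ (1 - x ^ 2) * (1 + 57 / 50 * e * t ^ 2) := by
    have : 57 / 50 * e * t ^ 2 = 57 / 50 * x ^ 2 := by rw [hx2e]; ring
    rw [this]
    nlinarith [sq_nonneg x]
  have hpos2 : 0 ≤ 1 + 57 / 50 * e * t ^ 2 := by positivity
  calc D ≤ D * ((1 - x ^ 2) * (1 + 57 / 50 * e * t ^ 2)) := by nlinarith
    _ = ((1 - x ^ 2) * D) * (1 + 57 / 50 * e * t ^ 2) := by ring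
    _ ≤ (d * A) * (1 + 57 / 50 * e * t ^ 2) := mul_le_mul_of_nonneg_right h4 hpos2
    _ = d * (A * (1 + 57 / 50 * e * t ^ 2)) := by ring

lemma final_real {e ph Wr : ℝ} (hepos : 0 < e) (he4 : e ≤ 1 / 4)
    (hfin : |ph| ≤ (7 / 10 : ℝ) + (57 / 50 * e - 9409 / 10000) / 3 * (7 / 10) ^ 3
      + (357 / 1000 * (1 - e) - 57 / 50 * e * (9409 / 10000)) / 5 * (7 / 10) ^ 5
      + 57 / 50 * e * (357 / 1000 * (1 - e)) / 7 * (7 / 10) ^ 7)
    (hl : Wr - 357 / 1000 * (1 - e) * (7 / 10) ^ 4 ≤ ph ^ 2)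
    (hWr : (97 / 100 * (7 / 10 : ℝ)) ^ 2 < Wr) : False := by
  have hU : |ph| ≤ 60443 / 100000 + 8708 / 100000 * e := by
    refine le_trans hfin ?_
    nlinarith [mul_nonneg hepos.le hepos.le]
  have hsq : ph ^ 2 ≤ (60443 / 100000 + 8708 / 100000 * e) ^ 2 := by
    rw [← sq_abs ph]
    gcongr
  have he2 : e ^ 2 ≤ e / 4 := by nlinarith
  nlinarith

lemma low_real (P : ℝ[X]) {d : ℕ} (hd : 2 ≤ d) (hdeg : P.natDegree ≤ d)
    (hb : ∀ r : ℝ, |r| ≤ 1 → |P.eval r| ≤ 1) {e : ℝ} (hed : e * (d:ℝ) ^ 2 = 1)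
    {x : ℝ} (hx0 : 0 ≤ x) (hdx : (d:ℝ) * x ≤ 7 / 10) :
    (P.coeff 1) ^ 2 * x ^ 2 - 357 / 1000 * (1 - e) * (d * x) ^ 4 ≤ ((phiP P).eval x) ^ 2 := by
  have hdx0 : 0 ≤ (d:ℝ) * x := by positivity
  have hz : (d:ℝ) ^ 2 * x ^ 2 ≤ 49 / 100 := by
    have : (d:ℝ) ^ 2 * x ^ 2 = (d * x) ^ 2 := by ring
    rw [this]; nlinarith
  have h := G_lower2 (sqG P d) (by omega) (sqG_natDegree P (by omega) hdeg) (sqG_01 P hdeg hb)
    (sqG_coeff_zero P d) (sq_nonneg x) hz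
  rw [sqG_coeff_one, sqG_eval_sq P hdeg x, ← phiP_eval] at h
  have e1 : (d:ℝ) ^ 2 * ((d:ℝ) ^ 2 - 1) * (x ^ 2) ^ 2 = (1 - e) * (d * x) ^ 4 := by
    have : (1 - e) * (d * x) ^ 4 = (d:ℝ) ^ 4 * x ^ 4 - (e * (d:ℝ) ^ 2) * ((d:ℝ) ^ 2 * x ^ 4) := by ring
    rw [this, hed]; ring
  rw [e1] at h
  linarith

theorem core2 {d : ℕ} (hd : 2 ≤ d) (P : ℝ[X]) (hdeg : P.natDegree ≤ d)
    (hb : ∀ r : ℝ, |r| ≤ 1 → |P.eval r| ≤ 1)
    (hii : ∀ r : ℝ, |r| < 1 → (1 - r ^ 2) * |(derivative P).eval r| ≤ d * (1 - (P.eval r) ^ 2)) :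
    P.coeff 1 ≤ 97 / 100 * d := by
  by_contra hcon
  rw [not_le] at hcon
  have hd2 : (2:ℝ) ≤ d := by exact_mod_cast hd
  have hdpos : (0:ℝ) < d := by linarith
  have hWpos : 0 < P.coeff 1 := by nlinarith
  set e : ℝ := 1 / (d:ℝ) ^ 2 with he
  have hepos : 0 < e := by positivity
  have hed : e * (d:ℝ) ^ 2 = 1 := by rw [he]; field_simp
  have he4 : e ≤ 1 / 4 := by
    rw [he, div_le_div_iff₀ (by positivity) (by norm_num)]
    nlinarith
  set r0 : ℝ := 7 / (10 * d) with hr0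
  have hr0pos : 0 < r0 := by positivity
  have hdr0 : (d:ℝ) * r0 = 7 / 10 := by rw [hr0]; field_simp
  have hder : ∀ x ∈ Ico (0:ℝ) r0,
      ‖(derivative (phiP P)).eval x‖ ≤ (derivative (cmpB2 d e)).eval x := by
    intro x hx
    have hx0 := hx.1
    have hdx : (d:ℝ) * x ≤ 7 / 10 := by
      rw [← hdr0]; exact mul_le_mul_of_nonneg_left (le_of_lt hx.2) hdpos.le
    have hxabs : |x| < 1 := by
      rw [abs_of_nonneg hx0]; nlinarith
    rw [cmpB2_deriv_eval, Real.norm_eq_abs]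
    exact step_real hd2 hed hepos hx0 hdx hcon (abs_nonneg _) (phiP_ineq P hii hxabs)
      (low_real P hd hdeg hb hed hx0 hdx)
  have hmain := image_norm_le_of_norm_deriv_right_le_deriv_boundary
    (f := fun x => (phiP P).eval x) (f' := fun x => (derivative (phiP P)).eval x)
    (a := 0) (b := r0) (B := fun x => (cmpB2 d e).eval x)
    (B' := fun x => (derivative (cmpB2 d e)).eval x)
    ((phiP P).continuous.continuousOn)
    (fun x _ => ((phiP P).hasDerivAt x).hasDerivWithinAt)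
    (by simp [phiP_eval, cmpB2_eval])
    (fun x => (cmpB2 d e).hasDerivAt x) hder
  have hfin := hmain (x := r0) ⟨le_of_lt hr0pos, le_rfl⟩
  simp only [Real.norm_eq_abs] at hfin
  rw [cmpB2_eval, hdr0] at hfin
  have hl := low_real P hd hdeg hb hed (le_of_lt hr0pos) (le_of_eq hdr0)
  rw [hdr0] at hl
  have hWr : (97 / 100 * (7 / 10 : ℝ)) ^ 2 < (P.coeff 1) ^ 2 * r0 ^ 2 := by
    have : 97 / 100 * (7 / 10 : ℝ) < P.coeff 1 * r0 := by
      rw [← hdr0]; nlinarith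
    calc (97 / 100 * (7 / 10 : ℝ)) ^ 2 < (P.coeff 1 * r0) ^ 2 := by gcongr
      _ = (P.coeff 1) ^ 2 * r0 ^ 2 := by ring
  exact final_real hepos he4 hfin hl hWr

end Vale.Agent.P047
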