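import Vale.Agent.Lib.P047.Defs

namespace Vale.Agent.P047

open Finset

lemma sgn_true : sgn true = 1 := by simp [sgn]
lemma sgn_false : sgn false = -1 := by simp [sgn]

lemma sgn_sq (b : Bool) : sgn b * sgn b = 1 := by
  cases b <;> simp [sgn]

lemma sgn_sq' (b : Bool) : sgn b ^ 2 = 1 := by
  cases b <;> simp [sgn]

lemma sgn_abs (b : Bool) : |sgn b| = 1 := by
  cases b <;> simp [sgn]

/-- Sum over the cube of a product function factorises. -/
lemma sum_prod_cube {n : ℕ} (h : Fin n → Bool → ℝ) :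
    ∑ x : Fin n → Bool, ∏ i, h i (x i) = ∏ i, (h i true + h i false) := by
  have := (Finset.prod_univ_sum (fun _ : Fin n => (Finset.univ : Finset Bool)) h).symm
  rw [Fintype.piFinset_univ] at this
  rw [this]
  apply Finset.prod_congr rfl
  intro i _
  simp

/-- indicator of a subcube -/
noncomputable def ind {n : ℕ} (J : Finset (Fin n)) (a x : Fin n → Bool) : ℝ :=
  if ∀ i ∈ J, x i = a i then 1 else 0

lemma ind_eq_prod {n : ℕ} (J : Finset (Fin n)) (a x : Fin n → Bool) :
    ind J a x = ∏ i, (if i ∈ J then (if x i = a i then (1:ℝ) else 0) else 1) := by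
  unfold ind
  rw [Finset.prod_ite_mem, Finset.univ_inter, Finset.prod_ite_zero]
  simp

lemma chi_eq_prod {n : ℕ} (T : Finset (Fin n)) (x : Fin n → Bool) :
    ∏ i ∈ T, sgn (x i) = ∏ i, (if i ∈ T then sgn (x i) else 1) := by
  rw [Finset.prod_ite_mem, Finset.univ_inter]

/-- Correlation of a subcube indicator with a character. -/
lemma sum_ind_chi {n : ℕ} (J : Finset (Fin n)) (a : Fin n → Bool) (T : Finset (Fin n)) :
    ∑ x : Fin n → Bool, ind J a x * ∏ i ∈ T, sgn (x i)
      = if T ⊆ J then 2 ^ (n - J.card) * ∏ i ∈ T, sgn (a i) else 0 := by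
  have key := sum_prod_cube (fun (i : Fin n) (b : Bool) =>
          (if i ∈ J then (if b = a i then (1:ℝ) else 0) else 1) * (if i ∈ T then sgn b else 1))
  have h1 : ∀ x : Fin n → Bool, ind J a x * ∏ i ∈ T, sgn (x i)
      = ∏ i, ((if i ∈ J then (if x i = a i then (1:ℝ) else 0) else 1) * (if i ∈ T then sgn (x i) else 1)) := by
    intro x
    rw [ind_eq_prod, chi_eq_prod, ← Finset.prod_mul_distrib]
  rw [Finset.sum_congr rfl (fun x _ => h1 x), key]
  have h2 : ∀ i : Fin n,
      ((if i ∈ J then (if true = a i then (1:ℝ) else 0) else 1) * (if i ∈ T then sgn true else 1)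
      + (if i ∈ J then (if false = a i then (1:ℝ) else 0) else 1) * (if i ∈ T then sgn false else 1))
      = (if i ∈ J then 1 else 2) * (if i ∈ T then (if i ∈ J then sgn (a i) else 0) else 1) := by
    intro i
    by_cases hJ : i ∈ J <;> by_cases hT : i ∈ T <;> cases hai : a i <;> simp [hJ, hT, sgn] <;> norm_num
  simp_rw [h2]
  rw [Finset.prod_mul_distrib]
  have h3 : ∏ i : Fin n, (if i ∈ J then (1:ℝ) else 2) = 2 ^ (n - J.card) := by
    rw [Finset.prod_ite]
    simp only [Finset.prod_const_one, one_mul, Finset.prod_const]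
    congr 1
    have : (Finset.univ.filter (fun i : Fin n => ¬ i ∈ J)) = Jᶜ := by
      ext i; simp
    rw [this, Finset.card_compl, Fintype.card_fin]
  rw [h3, Finset.prod_ite_mem, Finset.univ_inter, Finset.prod_ite_zero]
  by_cases hTJ : T ⊆ J
  · have h4 : ∀ i ∈ T, i ∈ J := fun i hi => hTJ hi
    rw [if_pos h4, if_pos hTJ]
  · have h4 : ¬ ∀ i ∈ T, i ∈ J := fun h => hTJ (fun i hi => h i hi)
    rw [if_neg h4, if_neg hTJ, mul_zero]

lemma pow_sub_div {n c : ℕ} (h : c ≤ n) : (2:ℝ) ^ (n - c) / 2 ^ n = 1 / 2 ^ c := by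
  rw [div_eq_div_iff (by positivity) (by positivity), one_mul, ← pow_add]
  congr 1
  omega

/-- Fourier coefficients of a linear combination of subcube indicators. -/
lemma sum_comb_chi {n : ℕ} {ι : Type} [Fintype ι] (J : ι → Finset (Fin n)) (a : ι → Fin n → Bool)
    (c : ι → ℝ) (T : Finset (Fin n)) :
    (∑ x : Fin n → Bool, (∑ k, ind (J k) (a k) x * c k) * ∏ i ∈ T, sgn (x i)) / 2 ^ n
      = ∑ k, c k * (if T ⊆ J k then (1 / 2 ^ (J k).card) * ∏ i ∈ T, sgn (a k i) else 0) := by
  have hcard : ∀ k, (J k).card ≤ n := fun k => by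
    simpa using Finset.card_le_univ (J k)
  have : ∀ x : Fin n → Bool, (∑ k, ind (J k) (a k) x * c k) * ∏ i ∈ T, sgn (x i)
      = ∑ k, c k * (ind (J k) (a k) x * ∏ i ∈ T, sgn (x i)) := by
    intro x
    rw [Finset.sum_mul]
    apply Finset.sum_congr rfl
    intro k _
    ring
  rw [Finset.sum_congr rfl (fun x _ => this x), Finset.sum_comm, Finset.sum_div]
  apply Finset.sum_congr rfl
  intro k _
  rw [← Finset.mul_sum, sum_ind_chi]
  by_cases h : T ⊆ J k
  · rw [if_pos h, if_pos h, mul_div_assoc, mul_div_right_comm, pow_sub_div (hcard k)]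
  · rw [if_neg h, if_neg h]; simp

/-- Characters have mean zero, except the trivial one. -/
lemma char_mean {n : ℕ} (T : Finset (Fin n)) :
    (∑ x : Fin n → Bool, ∏ i ∈ T, sgn (x i)) / 2 ^ n = if T = ∅ then 1 else 0 := by
  have h0 := sum_ind_chi (∅ : Finset (Fin n)) (fun _ => true) T
  have h1 : ∀ x : Fin n → Bool, ind (∅ : Finset (Fin n)) (fun _ => true) x = 1 := by
    intro x; simp [ind]
  simp only [h1, one_mul] at h0
  rw [h0]
  by_cases hT : T = ∅
  · subst hT; simp
  · have : ¬ T ⊆ ∅ := by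
      intro h; exact hT (Finset.subset_empty.mp h)
    rw [if_neg this, if_neg hT]; simp

/-- Mass of a subcube under the product measure with bias `τ`. -/
lemma sum_bias_ind {n : ℕ} (τ : ℝ) (J : Finset (Fin n)) (a : Fin n → Bool) :
    ∑ x : Fin n → Bool, (∏ i, (1 + τ * sgn (x i)) / 2) * ind J a x
      = ∏ i ∈ J, (1 + τ * sgn (a i)) / 2 := by
  have key := sum_prod_cube (fun (i : Fin n) (b : Bool) =>
          ((1 + τ * sgn b) / 2) * (if i ∈ J then (if b = a i then (1:ℝ) else 0) else 1))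
  have h1 : ∀ x : Fin n → Bool, (∏ i, (1 + τ * sgn (x i)) / 2) * ind J a x
      = ∏ i, (((1 + τ * sgn (x i)) / 2) * (if i ∈ J then (if x i = a i then (1:ℝ) else 0) else 1)) := by
    intro x
    rw [ind_eq_prod, ← Finset.prod_mul_distrib]
  rw [Finset.sum_congr rfl (fun x _ => h1 x), key]
  have h2 : ∀ i : Fin n,
      (((1 + τ * sgn true) / 2) * (if i ∈ J then (if true = a i then (1:ℝ) else 0) else 1)
      + ((1 + τ * sgn false) / 2) * (if i ∈ J then (if false = a i then (1:ℝ) else 0) else 1))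
      = (if i ∈ J then (1 + τ * sgn (a i)) / 2 else 1) := by
    intro i
    by_cases hJ : i ∈ J <;> cases hai : a i <;> simp [hJ, sgn] <;> ring
  simp_rw [h2]
  rw [Finset.prod_ite_mem, Finset.univ_inter]

end Vale.Agent.P047
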