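import Mathlib

namespace Vale.Agent.P047

/-- The sign attached to a bit: `true` stands for `+1` and `false` for `-1`. -/
def sgn (b : Bool) : ℝ := if b then 1 else -1

/-- Fourier coefficient `E[f(X) * prod_{i in S} X_i]` of a Boolean function
`f : {-1,1}^n -> {-1,1}`, both the inputs and the output being encoded by bits through `sgn`,
with `X` uniform on the cube. -/
noncomputable def fhat {n : ℕ} (f : (Fin n → Bool) → Bool) (S : Finset (Fin n)) : ℝ :=
  (∑ x : Fin n → Bool, sgn (f x) * ∏ i ∈ S, sgn (x i)) / 2 ^ n

/-- The sum of the level-one Fourier coefficients. -/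
noncomputable def levelOne {n : ℕ} (f : (Fin n → Bool) → Bool) : ℝ :=
  ∑ i : Fin n, fhat f {i}

/-- `deg f ≤ d`: every Fourier coefficient on a set of more than `d` coordinates vanishes. -/
def DegLE {n : ℕ} (f : (Fin n → Bool) → Bool) (d : ℕ) : Prop :=
  ∀ S : Finset (Fin n), d < S.card → fhat f S = 0

end Vale.Agent.P047
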