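import Mathlib

namespace Vale.Agent.P047

/-- `exp (t - t^2/2) ≤ 1 + t` for `t ≥ 0`. -/
lemma exp_le_one_add {t : ℝ} (ht : 0 ≤ t) : Real.exp (t - t ^ 2 / 2) ≤ 1 + t := by
  have h1 : 2 * t / (t + 2) ≤ Real.log (1 + t) := Real.le_log_one_add_of_nonneg ht
  have h2 : t - t ^ 2 / 2 ≤ 2 * t / (t + 2) := by
    rw [le_div_iff₀ (by linarith)]
    nlinarith [pow_nonneg ht 3]
  have h3 : t - t ^ 2 / 2 ≤ Real.log (1 + t) := le_trans h2 h1
  exact (Real.le_log_iff_exp_le (by linarith)).mp h3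

/-- The key numerical inequality: with `t = 1/sqrt(w+1)` and `A + B ≤ w`,
`A - B ≤ sqrt((w+1)/e) (1+t)^A (1-t)^B`. -/
lemma key_ineq (A B w : ℕ) (h : A + B ≤ w) :
    (A : ℝ) - B ≤ Real.sqrt ((w + 1) / Real.exp 1)
      * ((1 + 1 / Real.sqrt (w + 1)) ^ A * (1 - 1 / Real.sqrt (w + 1)) ^ B) := by
  set T : ℝ := Real.sqrt (w + 1) with hT
  have hw1 : (0:ℝ) < (w:ℝ) + 1 := by positivity
  have hTpos : 0 < T := Real.sqrt_pos.mpr hw1
  have hTsq : T ^ 2 = (w:ℝ) + 1 := Real.sq_sqrt hw1.le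
  have hT1 : 1 ≤ T := by
    rw [hT]
    apply Real.one_le_sqrt.mpr
    have : (0:ℝ) ≤ w := Nat.cast_nonneg w
    linarith
  set t : ℝ := 1 / T with ht
  have htpos : 0 < t := by positivity
  have htle : t ≤ 1 := by
    rw [ht, div_le_one hTpos]; exact hT1
  have htsq : t ^ 2 = 1 / ((w:ℝ) + 1) := by
    rw [ht, div_pow, one_pow, hTsq]
  have hK : Real.sqrt ((w + 1) / Real.exp 1) = T / Real.exp (1 / 2) := by
    rw [Real.sqrt_div hw1.le]
    congr 1
    rw [show (1:ℝ) = 1 / 2 + 1 / 2 by norm_num, Real.exp_add]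
    rw [Real.sqrt_mul_self (Real.exp_pos _).le]
    norm_num
  have hP0 : 0 ≤ (1 + t) ^ A * (1 - t) ^ B :=
    mul_nonneg (pow_nonneg (by linarith) _) (pow_nonneg (by linarith) _)
  rcases le_or_gt A B with hAB | hAB
  · have h1 : (A:ℝ) - B ≤ 0 := by
      have : (A:ℝ) ≤ B := by exact_mod_cast hAB
      linarith
    exact le_trans h1 (mul_nonneg (Real.sqrt_nonneg _) hP0)
  · -- A > B
    obtain ⟨s, rfl⟩ : ∃ s, A = B + s := ⟨A - B, by omega⟩
    have hs1 : 1 ≤ s := by omega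
    have hwpos : (0:ℝ) < w := by
      have : 0 < w := by omega
      exact_mod_cast this
    have hsplit : (1 + t) ^ (B + s) * (1 - t) ^ B = (1 - t ^ 2) ^ B * (1 + t) ^ s := by
      rw [pow_add, show (1 - t ^ 2) = (1 + t) * (1 - t) by ring, mul_pow]
      ring
    have h1 : Real.exp (-(1 / (w:ℝ))) ≤ 1 - t ^ 2 := by
      rw [htsq]
      have e1 : 1 - 1 / ((w:ℝ) + 1) = 1 / (1 + 1 / (w:ℝ)) := by
        field_simp
        ring
      rw [e1, Real.exp_neg, ← one_div]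
      apply one_div_le_one_div_of_le (by positivity)
      have := Real.add_one_le_exp (1 / (w:ℝ))
      linarith
    have h2 : Real.exp (-((B:ℝ) / w)) ≤ (1 - t ^ 2) ^ B := by
      calc Real.exp (-((B:ℝ) / w)) = (Real.exp (-(1 / (w:ℝ)))) ^ B := by
            rw [← Real.exp_nat_mul]; congr 1; ring
        _ ≤ (1 - t ^ 2) ^ B := pow_le_pow_left₀ (Real.exp_pos _).le h1 B
    have h3 : Real.exp ((s:ℝ) * (t - t ^ 2 / 2)) ≤ (1 + t) ^ s := by
      calc Real.exp ((s:ℝ) * (t - t ^ 2 / 2)) = (Real.exp (t - t ^ 2 / 2)) ^ s := by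
            rw [← Real.exp_nat_mul]
        _ ≤ (1 + t) ^ s := pow_le_pow_left₀ (Real.exp_pos _).le (exp_le_one_add htpos.le) s
    have h4 : Real.exp (-((B:ℝ) / w) + (s:ℝ) * (t - t ^ 2 / 2)) ≤ (1 - t ^ 2) ^ B * (1 + t) ^ s := by
      rw [Real.exp_add]
      exact mul_le_mul h2 h3 (Real.exp_pos _).le (le_trans (Real.exp_pos _).le h2)
    have h5 : (s:ℝ) * t - 1 / 2 ≤ -((B:ℝ) / w) + (s:ℝ) * (t - t ^ 2 / 2) := by
      rw [htsq]
      have hsum : 2 * (B:ℝ) + s ≤ w := by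
        have : 2 * B + s ≤ w := by omega
        exact_mod_cast this
      have e2 : (s:ℝ) * (1 / ((w:ℝ) + 1) / 2) ≤ (s:ℝ) / (2 * w) := by
        rw [mul_div_assoc', mul_one_div, div_div]
        apply div_le_div_of_nonneg_left (Nat.cast_nonneg s) (by positivity)
        linarith
      have e3 : (B:ℝ) / w + (s:ℝ) / (2 * w) ≤ 1 / 2 := by
        rw [div_add_div _ _ hwpos.ne' (by positivity), div_le_div_iff₀ (by positivity) (by norm_num)]
        nlinarith
      nlinarith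
    have h6 : (s:ℝ) * t * Real.exp (1 / 2) ≤ Real.exp ((s:ℝ) * t - 1 / 2) := by
      have e4 : (s:ℝ) * t - 1 / 2 = ((s:ℝ) * t - 1) + 1 / 2 := by ring
      rw [e4, Real.exp_add]
      apply mul_le_mul_of_nonneg_right _ (Real.exp_pos _).le
      have := Real.add_one_le_exp ((s:ℝ) * t - 1)
      linarith
    have h7 : (s:ℝ) * t * Real.exp (1 / 2) ≤ (1 + t) ^ (B + s) * (1 - t) ^ B := by
      rw [hsplit]
      exact le_trans h6 (le_trans (Real.exp_le_exp.mpr h5) h4)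
    rw [hK]
    have h8 : ((B + s : ℕ) : ℝ) - B = s := by push_cast; ring
    rw [h8]
    have hE : 0 < Real.exp (1 / 2) := Real.exp_pos _
    calc (s:ℝ) = T / Real.exp (1 / 2) * ((s:ℝ) * t * Real.exp (1 / 2)) := by
          rw [ht]; field_simp
      _ ≤ T / Real.exp (1 / 2) * ((1 + t) ^ (B + s) * (1 - t) ^ B) :=
          mul_le_mul_of_nonneg_left h7 (by positivity)

end Vale.Agent.P047
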