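import Vale.Agent.Lib.P047.Lower

namespace Vale.Agent.P047

open Polynomial Finset

lemma sum_range_two_mul' (g : ℕ → ℝ) (m : ℕ) :
    ∑ k ∈ range (2 * m), g k = ∑ j ∈ range m, (g (2 * j) + g (2 * j + 1)) := by
  induction m with
  | zero => simp
  | succ m ih =>
    have : 2 * (m + 1) = 2 * m + 1 + 1 := by ring
    rw [this, Finset.sum_range_succ, Finset.sum_range_succ, ih, Finset.sum_range_succ]
    ring

/-- the polynomial `R` with `(P(x) - P(-x))/2 = x R(x^2)`. -/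
noncomputable def oddR (P : ℝ[X]) (d : ℕ) : ℝ[X] :=
  ∑ j ∈ range (d + 1), C (P.coeff (2 * j + 1)) * X ^ j

lemma oddR_coeff (P : ℝ[X]) (d j : ℕ) :
    (oddR P d).coeff j = if j < d + 1 then P.coeff (2 * j + 1) else 0 := by
  unfold oddR
  rw [finsetSum_coeff]
  simp only [coeff_C_mul_X_pow]
  rw [Finset.sum_ite_eq]
  simp

lemma oddR_natDegree (P : ℝ[X]) {d : ℕ} (h : P.natDegree ≤ d) :
    (oddR P d).natDegree ≤ (d - 1) / 2 := by
  rw [natDegree_le_iff_coeff_eq_zero]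
  intro N hN
  rw [oddR_coeff]
  split_ifs
  · exact coeff_eq_zero_of_natDegree_lt (by omega)
  · rfl

lemma oddR_eval (P : ℝ[X]) {d : ℕ} (h : P.natDegree ≤ d) (x : ℝ) :
    P.eval x - P.eval (-x) = 2 * (x * (oddR P d).eval (x ^ 2)) := by
  have e1 : P.eval x = ∑ k ∈ range (2 * (d + 1)), P.coeff k * x ^ k :=
    eval_eq_sum_range' (by omega) x
  have e2 : P.eval (-x) = ∑ k ∈ range (2 * (d + 1)), P.coeff k * (-x) ^ k :=
    eval_eq_sum_range' (by omega) (-x)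
  rw [e1, e2, sum_range_two_mul', sum_range_two_mul', ← Finset.sum_sub_distrib]
  unfold oddR
  rw [eval_finsetSum, Finset.mul_sum, Finset.mul_sum]
  apply Finset.sum_congr rfl
  intro j _
  simp only [eval_mul, eval_C, eval_pow, eval_X]
  have h1 : (-x) ^ (2 * j) = x ^ (2 * j) := by
    rw [pow_mul, pow_mul, neg_sq]
  have h2 : (-x) ^ (2 * j + 1) = - x ^ (2 * j + 1) := by
    rw [pow_succ, h1, pow_succ]; ring
  rw [h1, h2, ← pow_mul, pow_succ]
  ring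

/-- `G(z) = z R(z)^2`, so that `G(x^2) = ((P(x)-P(-x))/2)^2`. -/
noncomputable def sqG (P : ℝ[X]) (d : ℕ) : ℝ[X] := X * (oddR P d) ^ 2

lemma sqG_natDegree (P : ℝ[X]) {d : ℕ} (hd : 1 ≤ d) (h : P.natDegree ≤ d) :
    (sqG P d).natDegree ≤ d := by
  unfold sqG
  have h1 := oddR_natDegree P h
  have h2 : ((oddR P d) ^ 2).natDegree ≤ 2 * ((d - 1) / 2) :=
    le_trans (natDegree_pow_le) (Nat.mul_le_mul le_rfl h1)
  have h3 : (X * (oddR P d) ^ 2).natDegree ≤ 1 + 2 * ((d - 1) / 2) := by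
    refine le_trans natDegree_mul_le ?_
    rw [natDegree_X]
    omega
  omega

lemma sqG_coeff_zero (P : ℝ[X]) (d : ℕ) : (sqG P d).coeff 0 = 0 := by
  unfold sqG
  simp

lemma sqG_coeff_one (P : ℝ[X]) (d : ℕ) : (sqG P d).coeff 1 = (P.coeff 1) ^ 2 := by
  unfold sqG
  rw [coeff_X_mul, coeff_zero_eq_eval_zero, eval_pow, ← coeff_zero_eq_eval_zero, oddR_coeff]
  simp

lemma sqG_eval_sq (P : ℝ[X]) {d : ℕ} (h : P.natDegree ≤ d) (x : ℝ) :
    (sqG P d).eval (x ^ 2) = ((P.eval x - P.eval (-x)) / 2) ^ 2 := by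
  rw [oddR_eval P h x]
  unfold sqG
  simp only [eval_mul, eval_X, eval_pow]
  ring

lemma sqG_01 (P : ℝ[X]) {d : ℕ} (h : P.natDegree ≤ d)
    (hb : ∀ r : ℝ, |r| ≤ 1 → |P.eval r| ≤ 1) (z : ℝ) (hz0 : 0 ≤ z) (hz1 : z ≤ 1) :
    0 ≤ (sqG P d).eval z ∧ (sqG P d).eval z ≤ 1 := by
  have hx : (Real.sqrt z) ^ 2 = z := Real.sq_sqrt hz0
  have hs0 : 0 ≤ Real.sqrt z := Real.sqrt_nonneg z
  have hs1 : Real.sqrt z ≤ 1 := by
    rw [Real.sqrt_le_left (by norm_num : (0:ℝ) ≤ 1)]; simpa using hz1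
  have e := sqG_eval_sq P h (Real.sqrt z)
  rw [hx] at e
  rw [e]
  have b1 := abs_le.mp (hb (Real.sqrt z) (by rw [abs_of_nonneg hs0]; exact hs1))
  have b2 := abs_le.mp (hb (-Real.sqrt z) (by rw [abs_neg, abs_of_nonneg hs0]; exact hs1))
  constructor
  · positivity
  · have : |(P.eval (Real.sqrt z) - P.eval (-Real.sqrt z)) / 2| ≤ 1 := by
      rw [abs_le]; constructor <;> linarith [b1.1, b1.2, b2.1, b2.2]
    have h2 := pow_le_one₀ (abs_nonneg _) this (n := 2)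
    rwa [sq_abs] at h2

end Vale.Agent.P047
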